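import Mathlib

/-!
# Seymour's second neighbourhood conjecture, unweighted, self-contained

`nb R S` : image of the set `S` under the relation `R` (closed out-neighbourhood when `R` is the
reflexive closure of the arc relation); `er R B z` : intersection of `B a` over all `a` with
`R a z`; `h R S = |nb R S| - |S|` is submodular.
-/

namespace Vale.Agent.P038.H135

open Finset Classical

variable {V : Type*} [Fintype V]

/-- image of a set under the relation `R` -/
noncomputable def nb (R : V → V → Prop) (S : Finset V) : Finset V :=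
  univ.filter fun z => ∃ x ∈ S, R x z

/-- intersection of the sets `B a` over all `a` with `R a z` -/
noncomputable def er (R : V → V → Prop) (B : V → Finset V) (z : V) : Finset V :=
  univ.filter fun b => ∀ a, R a z → b ∈ B a

/-- boundary size -/
noncomputable def h (R : V → V → Prop) (S : Finset V) : ℤ :=
  ((nb R S).card : ℤ) - (S.card : ℤ)

theorem mem_nb {R : V → V → Prop} {S : Finset V} {z : V} :
    z ∈ nb R S ↔ ∃ x ∈ S, R x z := by simp [nb]

theorem mem_er {R : V → V → Prop} {B : V → Finset V} {z b : V} :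
    b ∈ er R B z ↔ ∀ a, R a z → b ∈ B a := by simp [er]

theorem nb_mono {R : V → V → Prop} {S T : Finset V} (hST : S ⊆ T) : nb R S ⊆ nb R T := by
  intro z hz
  rw [mem_nb] at *
  obtain ⟨x, hx, hr⟩ := hz
  exact ⟨x, hST hx, hr⟩

theorem nb_union (R : V → V → Prop) (S T : Finset V) :
    nb R (S ∪ T) = nb R S ∪ nb R T := by
  ext z
  simp only [mem_nb, mem_union]
  constructor
  · rintro ⟨x, hx | hx, hr⟩
    · exact Or.inl ⟨x, hx, hr⟩
    · exact Or.inr ⟨x, hx, hr⟩
  · rintro (⟨x, hx, hr⟩ | ⟨x, hx, hr⟩)
    · exact ⟨x, Or.inl hx, hr⟩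
    · exact ⟨x, Or.inr hx, hr⟩

theorem submod (R : V → V → Prop) (S T : Finset V) :
    h R (S ∪ T) + h R (S ∩ T) ≤ h R S + h R T := by
  have h1 : (nb R (S ∩ T)).card ≤ (nb R S ∩ nb R T).card :=
    card_le_card (subset_inter (nb_mono inter_subset_left) (nb_mono inter_subset_right))
  have h2 := card_union_add_card_inter (nb R S) (nb R T)
  have h3 := card_union_add_card_inter S T
  rw [← nb_union] at h2
  unfold h
  omega

/-! ### interval minima -/

theorem exists_min (R : V → V → Prop) (P Q W : Finset V) (hPQ : P ⊆ Q) :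
    ∃ Y : Finset V, (P ⊆ Y ∧ W ∩ Q ⊆ Y ∧ Y ⊆ Q) ∧
      ∀ Y' : Finset V, P ⊆ Y' → W ∩ Q ⊆ Y' → Y' ⊆ Q → h R Y ≤ h R Y' := by
  obtain ⟨Y, hY, hmin⟩ := Finset.exists_min_image
    ((univ : Finset (Finset V)).filter fun Y => P ⊆ Y ∧ W ∩ Q ⊆ Y ∧ Y ⊆ Q) (h R)
    ⟨Q, by
      rw [mem_filter]
      exact ⟨mem_univ _, hPQ, inter_subset_right, Subset.refl _⟩⟩
  refine ⟨Y, (mem_filter.1 hY).2, ?_⟩
  intro Y' h1 h2 h3
  exact hmin Y' (mem_filter.2 ⟨mem_univ _, h1, h2, h3⟩)

/-- minimum of `h` over the interval `[P ∪ (W ∩ Q), Q]` -/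
noncomputable def k (R : V → V → Prop) (P Q W : Finset V) : ℤ :=
  if hPQ : P ⊆ Q then h R (exists_min R P Q W hPQ).choose else 0

theorem k_spec (R : V → V → Prop) {P Q : Finset V} (W : Finset V) (hPQ : P ⊆ Q) :
    ∃ Y : Finset V, P ⊆ Y ∧ W ∩ Q ⊆ Y ∧ Y ⊆ Q ∧ k R P Q W = h R Y := by
  have hs := (exists_min R P Q W hPQ).choose_spec
  refine ⟨(exists_min R P Q W hPQ).choose, hs.1.1, hs.1.2.1, hs.1.2.2, ?_⟩
  unfold k
  rw [dif_pos hPQ]

theorem k_le (R : V → V → Prop) {P Q : Finset V} {W Y : Finset V} (hPQ : P ⊆ Q)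
    (h1 : P ⊆ Y) (h2 : W ∩ Q ⊆ Y) (h3 : Y ⊆ Q) : k R P Q W ≤ h R Y := by
  have hs := (exists_min R P Q W hPQ).choose_spec
  unfold k
  rw [dif_pos hPQ]
  exact hs.2 Y h1 h2 h3

/-! ### the key inequality -/

theorem er_le (R : V → V → Prop) (B U : V → Finset V)
    (hR : ∀ a, ∀ Y : Finset V, B a ⊆ Y → Y ⊆ U a → h R (B a) ≤ h R Y)
    (hBU : ∀ a, B a ⊆ U a) (z : V) (Y : Finset V)
    (h1 : er R B z ⊆ Y) (h2 : Y ⊆ er R U z) : h R (er R B z) ≤ h R Y := by
  have main : ∀ I : Finset V, (∀ a ∈ I, R a z) →
      h R (Y.filter fun b => ∀ a ∈ I, b ∈ B a) ≤ h R Y := by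
    intro I
    induction I using Finset.induction_on with
    | empty =>
      intro _
      have : (Y.filter fun b => ∀ a ∈ (∅ : Finset V), b ∈ B a) = Y := by
        apply filter_true_of_mem
        intro b _ a ha
        simp at ha
      rw [this]
    | insert a I ha ih =>
      intro hI
      have ih' := ih (fun a' ha' => hI a' (mem_insert_of_mem ha'))
      have hRa : R a z := hI a (mem_insert_self _ _)
      have heq : (Y.filter fun b => ∀ a' ∈ insert a I, b ∈ B a') =
          (Y.filter fun b => ∀ a' ∈ I, b ∈ B a') ∩ B a := by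
        ext b
        simp only [mem_filter, mem_inter, mem_insert, forall_eq_or_imp]
        tauto
      rw [heq]
      have hs := submod R (Y.filter fun b => ∀ a' ∈ I, b ∈ B a') (B a)
      have hr := hR a ((Y.filter fun b => ∀ a' ∈ I, b ∈ B a') ∪ B a) subset_union_right
        (union_subset (fun b hb => by
          have := h2 (mem_filter.1 hb).1
          exact (mem_er.1 this) a hRa) (hBU a))
      linarith
  have hfin := main (univ.filter fun a => R a z) (by
    intro a ha
    exact (mem_filter.1 ha).2)
  have heq : (Y.filter fun b => ∀ a ∈ univ.filter (fun a => R a z), b ∈ B a) = er R B z := by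
    ext b
    simp only [mem_filter, mem_univ, true_and, mem_er]
    constructor
    · rintro ⟨_, hb⟩ a ha
      exact hb a ha
    · intro hb
      exact ⟨h1 (mem_er.2 hb), hb⟩
  rw [heq] at hfin
  exact hfin

theorem step_le (R : V → V → Prop) (B U : V → Finset V) (hBU : ∀ a, B a ⊆ U a)
    (hE : ∀ z, er R B z ⊆ er R U z) {a z b : V} (W : Finset V) (ha : R a z)
    (hb : b ∈ er R U z) :
    k R (B a) (U a) (insert b W) + k R (er R B z) (er R U z) W ≤
      k R (er R B z) (er R U z) (insert b W) + k R (B a) (U a) W := by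
  obtain ⟨Y, y1, y2, y3, y4⟩ := k_spec R (insert b W) (hE z)
  obtain ⟨Y', z1, z2, z3, z4⟩ := k_spec R W (hBU a)
  have hs := submod R Y Y'
  have e1 : k R (B a) (U a) (insert b W) ≤ h R (Y ∪ Y') := by
    apply k_le R (hBU a)
    · exact z1.trans subset_union_right
    · intro x hx
      rw [mem_inter, mem_insert] at hx
      rw [mem_union]
      rcases hx with ⟨rfl | hx, hxU⟩
      · exact Or.inl (y2 (mem_inter.2 ⟨mem_insert_self _ _, hb⟩))
      · exact Or.inr (z2 (mem_inter.2 ⟨hx, hxU⟩))
    · apply union_subset _ z3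
      intro x hx
      exact (mem_er.1 (y3 hx)) a ha
  have e2 : k R (er R B z) (er R U z) W ≤ h R (Y ∩ Y') := by
    apply k_le R (hE z)
    · apply subset_inter y1
      intro x hx
      exact z1 ((mem_er.1 hx) a ha)
    · intro x hx
      rw [mem_inter] at hx
      rw [mem_inter]
      exact ⟨y2 (mem_inter.2 ⟨mem_insert_of_mem hx.1, hx.2⟩),
        z2 (mem_inter.2 ⟨hx.1, (mem_er.1 hx.2) a ha⟩)⟩
    · exact inter_subset_left.trans y3
  linarith

theorem key (R : V → V → Prop) (B U : V → Finset V) (hBU : ∀ a, B a ⊆ U a)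
    (hR : ∀ a, ∀ Y : Finset V, B a ⊆ Y → Y ⊆ U a → h R (B a) ≤ h R Y)
    (hC : ∀ b, ∀ S : Finset V, (∀ a ∈ S, b ∈ U a ∧ b ∉ B a) →
      S.card ≤ (univ.filter fun z => b ∈ er R U z ∧ ∃ a ∈ S, R a z).card) :
    ∑ a, h R (U a) - ∑ a, h R (B a) ≤ ∑ z, h R (er R U z) - ∑ z, h R (er R B z) := by
  have hE : ∀ z, er R B z ⊆ er R U z := by
    intro z x hx
    rw [mem_er] at *
    intro a ha
    exact hBU a (hx a ha)
  -- induction
  have main : ∀ W : Finset V,
      ∑ a, k R (B a) (U a) W - ∑ a, k R (B a) (U a) ∅ ≤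
        ∑ z, k R (er R B z) (er R U z) W - ∑ z, k R (er R B z) (er R U z) ∅ := by
    intro W
    induction W using Finset.induction_on with
    | empty => simp
    | insert b W hbW ih =>
      set G : Finset V := univ.filter fun a => b ∈ U a ∧ b ∉ B a with hG
      -- Hall
      have hall := (Finset.all_card_le_biUnion_card_iff_exists_injective
        (fun a : {a // a ∈ G} => univ.filter fun z => b ∈ er R U z ∧ R a.1 z)).1 (by
          intro s
          have h1 := hC b (s.map (Function.Embedding.subtype _)) (by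
            intro a ha
            rw [mem_map] at ha
            obtain ⟨x, _, rfl⟩ := ha
            exact (mem_filter.1 x.2).2)
          rw [card_map] at h1
          refine h1.trans (card_le_card ?_)
          intro z hz
          rw [mem_filter] at hz
          obtain ⟨_, hz1, a, ha, hz2⟩ := hz
          rw [mem_map] at ha
          obtain ⟨x, hx, rfl⟩ := ha
          rw [mem_biUnion]
          exact ⟨x, hx, mem_filter.2 ⟨mem_univ _, hz1, hz2⟩⟩)
      obtain ⟨i, hi, hi2⟩ := hall
      set δ : V → ℤ := fun a => k R (B a) (U a) (insert b W) - k R (B a) (U a) W with hδ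
      set γ : V → ℤ := fun z => k R (er R B z) (er R U z) (insert b W) -
        k R (er R B z) (er R U z) W with hγ
      have hγ0 : ∀ z, 0 ≤ γ z := by
        intro z
        obtain ⟨Y, y1, y2, y3, y4⟩ := k_spec R (insert b W) (hE z)
        have : k R (er R B z) (er R U z) W ≤ h R Y := by
          apply k_le R (hE z) y1 _ y3
          exact (inter_subset_inter_right (subset_insert b W)).trans y2
        simp only [hγ]
        linarith
      have hδ0 : ∀ a, a ∉ G → δ a ≤ 0 := by
        intro a ha
        obtain ⟨Y, y1, y2, y3, y4⟩ := k_spec R W (hBU a)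
        have : k R (B a) (U a) (insert b W) ≤ h R Y := by
          apply k_le R (hBU a) y1 _ y3
          intro x hx
          rw [mem_inter, mem_insert] at hx
          rcases hx with ⟨rfl | hx, hxU⟩
          · by_cases hxB : x ∈ B a
            · exact y1 hxB
            · exact absurd (mem_filter.2 ⟨mem_univ _, hxU, hxB⟩) ha
          · exact y2 (mem_inter.2 ⟨hx, hxU⟩)
        simp only [hδ]
        linarith
      have hδγ : ∀ x : {a // a ∈ G}, δ x.1 ≤ γ (i x) := by
        intro x
        have h1 := (mem_filter.1 (hi2 x)).2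
        have h2 := step_le R B U hBU hE W h1.2 h1.1
        simp only [hδ, hγ]
        linarith
      have s1 : ∑ a, δ a ≤ ∑ a ∈ G, δ a := by
        rw [← Finset.sum_add_sum_compl G δ]
        have : ∑ a ∈ Gᶜ, δ a ≤ 0 := by
          apply Finset.sum_nonpos
          intro a ha
          exact hδ0 a (mem_compl.1 ha)
        linarith
      have s2 : ∑ a ∈ G, δ a = ∑ x : {a // a ∈ G}, δ x.1 := by
        rw [Finset.sum_coe_sort G δ]
      have s3 : ∑ x : {a // a ∈ G}, δ x.1 ≤ ∑ x : {a // a ∈ G}, γ (i x) :=
        Finset.sum_le_sum fun x _ => hδγ x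
      have s4 : ∑ x : {a // a ∈ G}, γ (i x) = ∑ z ∈ univ.image i, γ z := by
        rw [Finset.sum_image]
        intro x _ y _ hxy
        exact hi hxy
      have s5 : ∑ z ∈ univ.image i, γ z ≤ ∑ z, γ z := by
        apply Finset.sum_le_sum_of_subset_of_nonneg (subset_univ _)
        intro z _ _
        exact hγ0 z
      have s6 : ∑ a, δ a = ∑ a, k R (B a) (U a) (insert b W) - ∑ a, k R (B a) (U a) W := by
        simp only [hδ, Finset.sum_sub_distrib]
      have s7 : ∑ z, γ z = ∑ z, k R (er R B z) (er R U z) (insert b W) -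
          ∑ z, k R (er R B z) (er R U z) W := by
        simp only [hγ, Finset.sum_sub_distrib]
      linarith
  have hm := main univ
  have t1 : ∑ a, h R (U a) ≤ ∑ a, k R (B a) (U a) univ := by
    apply Finset.sum_le_sum
    intro a _
    obtain ⟨Y, y1, y2, y3, y4⟩ := k_spec R univ (hBU a)
    have : Y = U a := by
      apply Subset.antisymm y3
      intro x hx
      exact y2 (mem_inter.2 ⟨mem_univ _, hx⟩)
    rw [y4, this]
  have t2 : ∑ a, k R (B a) (U a) ∅ ≤ ∑ a, h R (B a) := by
    apply Finset.sum_le_sum
    intro a _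
    exact k_le R (hBU a) (Subset.refl _) (by simp) (hBU a)
  have t3 : ∑ z, k R (er R B z) (er R U z) univ ≤ ∑ z, h R (er R U z) := by
    apply Finset.sum_le_sum
    intro z _
    exact k_le R (hE z) (hE z) inter_subset_right (Subset.refl _)
  have t4 : ∑ z, h R (er R B z) ≤ ∑ z, k R (er R B z) (er R U z) ∅ := by
    apply Finset.sum_le_sum
    intro z _
    obtain ⟨Y, y1, y2, y3, y4⟩ := k_spec R ∅ (hE z)
    rw [y4]
    exact er_le R B U hR hBU z Y y1 y3
  linarith

/-! ### counting pairs -/

theorem card_eq (S : Finset V) : (S.card : ℤ) = ∑ x, if x ∈ S then (1 : ℤ) else 0 := by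
  simp

theorem sum_card_swap (Q : V → Finset V) :
    ∑ x, ((Q x).card : ℤ) = ∑ a, ∑ x, if a ∈ Q x then (1 : ℤ) else 0 := by
  rw [Finset.sum_comm]
  apply Finset.sum_congr rfl
  intro x _
  exact card_eq (Q x)

theorem sum_card (P : V → Finset V) :
    ∑ a, ((P a).card : ℤ) = ∑ a, ∑ x, if x ∈ P a then (1 : ℤ) else 0 := by
  apply Finset.sum_congr rfl
  intro x _
  exact card_eq (P x)

/-- number of pairs plus number of diagonal pairs -/
noncomputable def K (V : Type*) [Fintype V] : ℤ :=
  ∑ a : V, ∑ x : V, ((1 : ℤ) + if a = x then 1 else 0)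

theorem count_le (P Q : V → Finset V) (hPQ : ∀ a x, x ∈ P a → a ∈ Q x → a = x) :
    ∑ a, ((P a).card : ℤ) + ∑ x, ((Q x).card : ℤ) ≤ K V := by
  rw [sum_card, sum_card_swap, ← Finset.sum_add_distrib]
  unfold K
  apply Finset.sum_le_sum
  intro a _
  rw [← Finset.sum_add_distrib]
  apply Finset.sum_le_sum
  intro x _
  by_cases h1 : x ∈ P a
  · by_cases h2 : a ∈ Q x
    · have := hPQ a x h1 h2
      rw [if_pos h1, if_pos h2, if_pos this]
    · rw [if_pos h1, if_neg h2]
      split_ifs <;> norm_num
  · rw [if_neg h1]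
    split_ifs <;> norm_num

theorem count_ge (P Q : V → Finset V) (h1 : ∀ a x, x ∈ P a ∨ a ∈ Q x)
    (h2 : ∀ a, a ∈ P a) (h3 : ∀ a, a ∈ Q a) :
    K V ≤ ∑ a, ((P a).card : ℤ) + ∑ x, ((Q x).card : ℤ) := by
  rw [sum_card, sum_card_swap, ← Finset.sum_add_distrib]
  unfold K
  apply Finset.sum_le_sum
  intro a _
  rw [← Finset.sum_add_distrib]
  apply Finset.sum_le_sum
  intro x _
  by_cases hax : a = x
  · subst hax
    rw [if_pos rfl, if_pos (h2 a), if_pos (h3 a)]
  · rw [if_neg hax]
    rcases h1 a x with h | h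
    · rw [if_pos h]
      split_ifs <;> norm_num
    · rw [if_pos h]
      split_ifs <;> norm_num

/-! ### outer pairs -/

/-- compatibility of two families -/
def Orth (B C : V → Finset V) : Prop := ∀ a x, x ∈ B a → a ∈ C x → a = x

/-- outer-feasible pairs of families -/
def Out (R : V → V → Prop) (B C : V → Finset V) : Prop :=
  (∀ a x, R a x → x ∈ B a) ∧ (∀ a x, R a x → x ∈ C a) ∧ Orth B C

/-- total boundary -/
noncomputable def cost (R : V → V → Prop) (B C : V → Finset V) : ℤ :=
  ∑ a, h R (B a) + ∑ a, h R (C a)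

theorem sum_replace (R : V → V → Prop) (B : V → Finset V) (a : V) (Y : Finset V) :
    ∑ x, h R (if x = a then Y else B x) = ∑ x, h R (B x) + (h R Y - h R (B a)) := by
  have h1 : ∀ x, h R (if x = a then Y else B x) =
      h R (B x) + (if x = a then h R Y - h R (B a) else 0) := by
    intro x
    by_cases hx : x = a
    · subst hx
      rw [if_pos rfl, if_pos rfl]
      ring
    · rw [if_neg hx, if_neg hx]
      ring
  simp only [h1]
  rw [Finset.sum_add_distrib, Finset.sum_ite_eq']
  simp

theorem inner_le (R : V → V → Prop) (hrefl : ∀ v, R v v)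
    (B C : V → Finset V) (hO : Out R B C)
    (hmin : ∀ B' C', Out R B' C' → cost R B C ≤ cost R B' C') :
    cost R (er R B) (er R C) ≤ cost R B C := by
  obtain ⟨hB, hC, hort⟩ := hO
  set U : V → Finset V := fun a => univ.filter fun x => a = x ∨ a ∉ C x with hU
  have memU : ∀ a x, x ∈ U a ↔ (a = x ∨ a ∉ C x) := by
    intro a x
    simp [hU]
  have hBU : ∀ a, B a ⊆ U a := by
    intro a x hx
    rw [memU]
    by_cases hc : a ∈ C x
    · exact Or.inl (hort a x hx hc)
    · exact Or.inr hc
  have hrow : ∀ a, ∀ Y : Finset V, B a ⊆ Y → Y ⊆ U a → h R (B a) ≤ h R Y := by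
    intro a Y h1 h2
    have h3 := hmin (fun x => if x = a then Y else B x) C (by
      refine ⟨?_, hC, ?_⟩
      · intro a' x hax
        by_cases ha : a' = a
        · subst ha
          simp only [if_true]
          exact h1 (hB _ _ hax)
        · simp only [if_neg ha]
          exact hB _ _ hax
      · intro a' x hx hc
        by_cases ha : a' = a
        · subst ha
          simp only [if_true] at hx
          rcases (memU _ _).1 (h2 hx) with h | h
          · exact h
          · exact absurd hc h
        · simp only [if_neg ha] at hx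
          exact hort _ _ hx hc)
    unfold cost at h3
    rw [sum_replace] at h3
    linarith
  have hcol : ∀ b, ∀ S : Finset V, (∀ a ∈ S, b ∈ U a ∧ b ∉ B a) →
      S.card ≤ (univ.filter fun z => b ∈ er R U z ∧ ∃ a ∈ S, R a z).card := by
    intro b S hS
    have h3 := hmin B (fun x => if x = b then C b ∪ S else C x) (by
      refine ⟨hB, ?_, ?_⟩
      · intro a x hax
        by_cases ha : a = b
        · subst ha
          simp only [if_true]
          exact mem_union_left _ (hC _ _ hax)
        · simp only [if_neg ha]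
          exact hC _ _ hax
      · intro a x hx hc
        by_cases hxb : x = b
        · subst hxb
          simp only [if_true] at hc
          rcases mem_union.1 hc with h | h
          · exact hort _ _ hx h
          · exact absurd hx (hS a h).2
        · simp only [if_neg hxb] at hc
          exact hort _ _ hx hc)
    unfold cost at h3
    rw [sum_replace] at h3
    have h4 : h R (C b) ≤ h R (C b ∪ S) := by linarith
    have hdis : Disjoint (C b) S := by
      rw [Finset.disjoint_left]
      intro a ha haS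
      obtain ⟨h5, h6⟩ := hS a haS
      rcases (memU _ _).1 h5 with h | h
      · subst h
        exact h6 (hB _ _ (hrefl _))
      · exact h ha
    have h5 : (C b ∪ S).card = (C b).card + S.card := card_union_of_disjoint hdis
    have h6 : (nb R (C b ∪ S)).card ≤ (nb R (C b)).card +
        (univ.filter fun z => b ∈ er R U z ∧ ∃ a ∈ S, R a z).card := by
      refine (card_le_card ?_).trans (card_union_le _ _)
      intro z hz
      by_cases hzC : z ∈ nb R (C b)
      · exact mem_union_left _ hzC
      · apply mem_union_right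
        rw [mem_filter]
        refine ⟨mem_univ _, ?_, ?_⟩
        · rw [mem_er]
          intro a ha
          rw [memU]
          right
          intro hac
          exact hzC (mem_nb.2 ⟨a, hac, ha⟩)
        · rw [mem_nb] at hz
          obtain ⟨a, ha, haz⟩ := hz
          rcases mem_union.1 ha with h | h
          · exact absurd (mem_nb.2 ⟨a, h, haz⟩) hzC
          · exact ⟨a, h, haz⟩
    unfold h at h4
    omega
  have hkey := key R B U hBU hrow hcol
  -- bookkeeping
  have f1 := count_le U C (by
    intro a x h1 h2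
    rcases (memU _ _).1 h1 with h | h
    · exact h
    · exact absurd h2 h)
  have f2 := count_ge (er R U) (fun b => nb R (C b)) (by
    intro a x
    by_cases hx : x ∈ er R U a
    · exact Or.inl hx
    · right
      rw [mem_er] at hx
      push Not at hx
      obtain ⟨s, hs, hsx⟩ := hx
      rw [memU] at hsx
      push Not at hsx
      exact mem_nb.2 ⟨s, hsx.2, hs⟩) (by
    intro a
    rw [mem_er]
    intro s hs
    rw [memU]
    by_cases hsa : s ∈ C a
    · exact Or.inl (hort _ _ (hB _ _ hs) hsa)
    · exact Or.inr hsa) (by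
    intro a
    exact mem_nb.2 ⟨a, hC _ _ (hrefl a), hrefl a⟩)
  have f3 := count_le (fun a => nb R (er R U a)) (fun b => nb R (er R C b)) (by
    intro a b h1 h2
    rw [mem_nb] at h1 h2
    obtain ⟨c, hc, hcb⟩ := h1
    obtain ⟨y, hy, hya⟩ := h2
    rw [mem_er] at hc hy
    have h3 : y ∈ C c := hy c hcb
    have h4 : c ∈ U y := hc y hya
    have h5 : y = c := by
      rcases (memU _ _).1 h4 with h | h
      · exact h
      · exact absurd h3 h
    subst h5
    have h6 : y ∈ U a := hc a (hrefl a)
    have h7 : a = y := by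
      rcases (memU _ _).1 h6 with h | h
      · exact h
      · exact absurd (hC _ _ hya) h
    subst h7
    have h8 : a ∈ C b := hy b (hrefl b)
    exact hort a b (hB _ _ hcb) h8)
  have f4 := count_ge (fun a => nb R (U a)) (er R C) (by
    intro a b
    by_cases ha : a ∈ er R C b
    · exact Or.inr ha
    · left
      rw [mem_er] at ha
      push Not at ha
      obtain ⟨t, ht, hta⟩ := ha
      exact mem_nb.2 ⟨t, (memU _ _).2 (Or.inr hta), ht⟩) (by
    intro a
    exact mem_nb.2 ⟨a, (memU _ _).2 (Or.inl rfl), hrefl a⟩) (by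
    intro a
    rw [mem_er]
    intro t ht
    exact hC _ _ ht)
  have e : ∀ P : V → Finset V, ∑ a, h R (P a) =
      ∑ a, ((nb R (P a)).card : ℤ) - ∑ a, ((P a).card : ℤ) := by
    intro P
    unfold h
    rw [Finset.sum_sub_distrib]
  have e1 := e U
  have e2 := e (er R U)
  have e3 := e C
  have e4 := e (er R C)
  unfold cost
  linarith

theorem inner_out (R : V → V → Prop) (hrefl : ∀ v, R v v)
    (B C : V → Finset V) (hO : Out R B C) :
    Out R (fun a => nb R (er R B a)) (fun a => nb R (er R C a)) := by
  obtain ⟨hB, hC, hort⟩ := hO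
  refine ⟨?_, ?_, ?_⟩
  · intro a x hax
    refine mem_nb.2 ⟨a, ?_, hax⟩
    rw [mem_er]
    intro s hs
    exact hB _ _ hs
  · intro a x hax
    refine mem_nb.2 ⟨a, ?_, hax⟩
    rw [mem_er]
    intro s hs
    exact hC _ _ hs
  · intro a x h1 h2
    rw [mem_nb] at h1 h2
    obtain ⟨c, hc, hcx⟩ := h1
    obtain ⟨y, hy, hya⟩ := h2
    rw [mem_er] at hc hy
    have h3 : c ∈ B y := hc y hya
    have h4 : y ∈ C c := hy c hcx
    have h5 : y = c := hort _ _ h3 h4
    subst h5
    have h6 : y ∈ B a := hc a (hrefl a)
    have h7 : a = y := hort _ _ h6 (hC _ _ hya)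
    subst h7
    exact hort a x (hB _ _ hcx) (hy x (hrefl x))

theorem no_G [Nonempty V] (R : V → V → Prop) (hrefl : ∀ v, R v v)
    (hanti : ∀ a b, R a b → R b a → a = b) (hout : ∀ v, ∃ u, u ≠ v ∧ R v u)
    (hG : ∀ S : Finset V, nb R S ≠ S → h R (nb R S) < h R S) : False := by
  obtain ⟨⟨B, C⟩, hp, hmin⟩ := Finset.exists_min_image
    ((univ : Finset ((V → Finset V) × (V → Finset V))).filter fun p => Out R p.1 p.2)
    (fun p => cost R p.1 p.2)
    ⟨(fun a => univ.filter fun x => R a x, fun a => univ.filter fun x => R a x), by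
      rw [mem_filter]
      refine ⟨mem_univ _, ?_, ?_, ?_⟩
      · intro a x hax
        simpa using hax
      · intro a x hax
        simpa using hax
      · intro a x h1 h2
        simp only [mem_filter, mem_univ, true_and] at h1 h2
        exact hanti _ _ h1 h2⟩
  have hO : Out R B C := (mem_filter.1 hp).2
  have hmin' : ∀ B' C', Out R B' C' → cost R B C ≤ cost R B' C' := by
    intro B' C' h'
    exact hmin (B', C') (mem_filter.2 ⟨mem_univ _, h'⟩)
  have h1 := inner_le R hrefl B C hO hmin'
  have h2 := inner_out R hrefl B C hO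
  have h3 := hmin' _ _ h2
  have hGle : ∀ S : Finset V, h R (nb R S) ≤ h R S := by
    intro S
    by_cases hS : nb R S = S
    · rw [hS]
    · exact (hG S hS).le
  have hclosed : ∀ a, nb R (er R B a) = er R B a := by
    intro a
    by_contra hne
    have h4 : ∑ a, h R (nb R (er R B a)) < ∑ a, h R (er R B a) := by
      apply Finset.sum_lt_sum
      · intro x _
        exact hGle _
      · exact ⟨a, mem_univ _, hG _ hne⟩
    have h5 : ∑ a, h R (nb R (er R C a)) ≤ ∑ a, h R (er R C a) := by
      apply Finset.sum_le_sum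
      intro x _
      exact hGle _
    unfold cost at h1 h3
    linarith
  -- minimal closed set
  obtain ⟨W, hW, hWmin⟩ := Finset.exists_min_image
    ((univ : Finset (Finset V)).filter fun W => W.Nonempty ∧ nb R W = W) (fun W => W.card)
    ⟨univ, by
      rw [mem_filter]
      refine ⟨mem_univ _, univ_nonempty, ?_⟩
      ext z
      simp only [mem_univ, iff_true]
      exact mem_nb.2 ⟨z, mem_univ _, hrefl z⟩⟩
  obtain ⟨⟨a, ha⟩, hWc⟩ := (mem_filter.1 hW).2
  obtain ⟨u, hua, hau⟩ := hout a
  have huW : u ∈ W := by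
    rw [← hWc]
    exact mem_nb.2 ⟨a, ha, hau⟩
  have hself : ∀ v, v ∈ er R B v := by
    intro v
    rw [mem_er]
    intro s hs
    exact hO.1 _ _ hs
  have hselfC : ∀ v, v ∈ er R C v := by
    intro v
    rw [mem_er]
    intro s hs
    exact hO.2.1 _ _ hs
  have hcl : nb R (er R B u ∩ W) = er R B u ∩ W := by
    apply Subset.antisymm
    · apply subset_inter
      · exact (nb_mono inter_subset_left).trans (hclosed u).subset
      · exact (nb_mono inter_subset_right).trans hWc.subset
    · intro z hz
      exact mem_nb.2 ⟨z, hz, hrefl z⟩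
  have hle := hWmin (er R B u ∩ W) (mem_filter.2 ⟨mem_univ _,
    ⟨u, mem_inter.2 ⟨hself u, huW⟩⟩, hcl⟩)
  have heq : er R B u ∩ W = W := eq_of_subset_of_card_le inter_subset_right hle
  have haX : a ∈ er R B u := by
    have : a ∈ er R B u ∩ W := by
      rw [heq]
      exact ha
    exact (mem_inter.1 this).1
  have := h2.2.2 u a (mem_nb.2 ⟨a, haX, hrefl a⟩) (mem_nb.2 ⟨a, hselfC a, hau⟩)
  exact hua this

/-! ### the arc-minimal counterexample -/

/-- first out-neighbourhood -/
noncomputable def N1 (D : V → V → Prop) (v : V) : Finset V := univ.filter fun u => D v u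

/-- second out-neighbourhood -/
noncomputable def N2 (D : V → V → Prop) (v : V) : Finset V :=
  univ.filter fun w => w ≠ v ∧ ¬ D v w ∧ ∃ u, D v u ∧ D u w

/-- the arc set -/
noncomputable def arcs (D : V → V → Prop) : Finset (V × V) := univ.filter fun p => D p.1 p.2

/-- reflexive closure -/
def cl (D : V → V → Prop) (a b : V) : Prop := a = b ∨ D a b

theorem G_of_min (D : V → V → Prop) (hce : ∀ v, (N2 D v).card < (N1 D v).card)
    (hmin : ∀ D' : V → V → Prop, (∀ a b, D' a b → D a b) → (arcs D').card < (arcs D).card →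
      ∃ v, (N1 D' v).card ≤ (N2 D' v).card)
    (X : Finset V) (hX : nb (cl D) X ≠ X) :
    h (cl D) (nb (cl D) X) < h (cl D) X := by
  have hsub : ∀ S : Finset V, S ⊆ nb (cl D) S := fun S z hz => mem_nb.2 ⟨z, hz, Or.inl rfl⟩
  set L : Finset V := nb (cl D) X \ X with hL
  have hLne : L.Nonempty := by
    rw [Finset.nonempty_iff_ne_empty]
    intro h0
    apply hX
    apply Subset.antisymm _ (hsub X)
    rw [hL, sdiff_eq_empty_iff_subset] at h0
    exact h0
  by_contra hcon
  push Not at hcon
  -- d
  set d : Finset V → ℤ := fun T => ((nb (cl D) T \ X).card : ℤ) - 2 * (T.card : ℤ) with hd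
  have hnn : nb (cl D) (nb (cl D) X) = X ∪ (nb (cl D) L \ X) := by
    ext z
    rw [mem_union, mem_sdiff]
    constructor
    · intro hz
      by_cases hzX : z ∈ X
      · exact Or.inl hzX
      · refine Or.inr ⟨?_, hzX⟩
        obtain ⟨x, hx, hxz⟩ := mem_nb.1 hz
        by_cases hxX : x ∈ X
        · have hzL : z ∈ L := mem_sdiff.2 ⟨mem_nb.2 ⟨x, hxX, hxz⟩, hzX⟩
          exact hsub L hzL
        · exact mem_nb.2 ⟨x, mem_sdiff.2 ⟨hx, hxX⟩, hxz⟩
    · rintro (hz | ⟨hz, _⟩)
      · exact hsub _ (hsub _ hz)
      · obtain ⟨x, hx, hxz⟩ := mem_nb.1 hz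
        exact mem_nb.2 ⟨x, (mem_sdiff.1 hx).1, hxz⟩
  have c1 : (nb (cl D) (nb (cl D) X)).card = X.card + (nb (cl D) L \ X).card := by
    rw [hnn, card_union_of_disjoint disjoint_sdiff]
  have c2 : (nb (cl D) X).card = X.card + L.card := by
    have h1 : nb (cl D) X = X ∪ L := by
      rw [hL, union_sdiff_of_subset (hsub X)]
    rw [h1, card_union_of_disjoint disjoint_sdiff]
  have hdL : 0 ≤ d L := by
    simp only [hd]
    unfold h at hcon
    omega
  have hd0 : d ∅ = 0 := by
    have : nb (cl D) (∅ : Finset V) = ∅ := by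
      ext z
      simp [mem_nb]
    simp [hd, this]
  -- minimal proper subset
  obtain ⟨T, hT, hTmin⟩ := Finset.exists_min_image
    ((univ : Finset (Finset V)).filter fun T => T ⊂ L) d
    ⟨∅, by
      rw [mem_filter]
      exact ⟨mem_univ _, hLne.empty_ssubset⟩⟩
  have hTL : T ⊂ L := (mem_filter.1 hT).2
  have hdT : d T ≤ 0 := by
    rw [← hd0]
    exact hTmin ∅ (mem_filter.2 ⟨mem_univ _, hLne.empty_ssubset⟩)
  have hplan : ∀ O : Finset V, O ⊆ L \ T →
      2 * O.card ≤ (nb (cl D) O \ (nb (cl D) T ∪ X)).card := by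
    intro O hO
    have hdle : d T ≤ d (T ∪ O) := by
      by_cases hTO : T ∪ O = L
      · rw [hTO]
        linarith
      · apply hTmin
        rw [mem_filter]
        refine ⟨mem_univ _, ?_⟩
        refine lt_of_le_of_ne ?_ hTO
        exact union_subset hTL.subset (hO.trans sdiff_subset)
    have hdis : Disjoint T O := by
      rw [Finset.disjoint_left]
      intro z hz hzO
      exact (mem_sdiff.1 (hO hzO)).2 hz
    have k1 : (T ∪ O).card = T.card + O.card := card_union_of_disjoint hdis
    have k2 : nb (cl D) (T ∪ O) \ X ⊆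
        (nb (cl D) T \ X) ∪ (nb (cl D) O \ (nb (cl D) T ∪ X)) := by
      intro z hz
      rw [nb_union, mem_sdiff, mem_union] at hz
      rw [mem_union, mem_sdiff, mem_sdiff, mem_union]
      tauto
    have k3 := (card_le_card k2).trans (card_union_le _ _)
    simp only [hd] at hdle
    omega
  -- the smaller digraph
  set D' : V → V → Prop := fun a b => D a b ∧ ¬ (a ∈ X ∧ b ∉ X ∧ b ∉ T) with hD'
  have hlt : (arcs D').card < (arcs D).card := by
    apply card_lt_card
    rw [Finset.ssubset_iff_of_subset]
    · obtain ⟨z, hzL, hzT⟩ := Finset.exists_of_ssubset hTL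
      have hz1 := (mem_sdiff.1 hzL).1
      have hzX := (mem_sdiff.1 hzL).2
      obtain ⟨y, hy, hyz⟩ := mem_nb.1 hz1
      have hDyz : D y z := by
        rcases hyz with h | h
        · subst h
          exact absurd hy hzX
        · exact h
      refine ⟨(y, z), ?_, ?_⟩
      · simp [arcs, hDyz]
      · intro hmem
        simp only [arcs, hD', mem_filter, mem_univ, true_and] at hmem
        exact hmem.2 ⟨hy, hzX, hzT⟩
    · intro p hp
      simp only [arcs, hD', mem_filter, mem_univ, true_and] at hp ⊢
      exact hp.1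
  obtain ⟨v, hv⟩ := hmin D' (fun a b hab => hab.1) hlt
  by_cases hvX : v ∈ X
  · set Dy : Finset V := N1 D v \ (X ∪ T) with hDy
    have hDyL : Dy ⊆ L \ T := by
      intro z hz
      rw [hDy, mem_sdiff, mem_union, N1, mem_filter] at hz
      rw [mem_sdiff, hL, mem_sdiff]
      push Not at hz
      exact ⟨⟨mem_nb.2 ⟨v, hvX, Or.inr hz.1.2⟩, hz.2.1⟩, hz.2.2⟩
    have hp := hplan Dy hDyL
    set E : Finset V := nb (cl D) Dy \ (nb (cl D) T ∪ X) with hE
    have a1 : (N1 D v).card = (N1 D' v).card + Dy.card := by
      have : N1 D v = N1 D' v ∪ Dy := by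
        ext z
        simp only [N1, hDy, hD', mem_union, mem_filter, mem_univ, true_and, mem_sdiff]
        tauto
      rw [this, card_union_of_disjoint]
      rw [Finset.disjoint_left]
      intro z hz hz2
      simp only [N1, hDy, hD', mem_union, mem_filter, mem_univ, true_and, mem_sdiff] at hz hz2
      tauto
    have a2 : N2 D' v ∪ E ⊆ N2 D v ∪ Dy := by
      apply union_subset
      · intro z hz
        simp only [N2, mem_filter, mem_univ, true_and] at hz
        obtain ⟨z1, z2, u, z3, z4⟩ := hz
        by_cases hDz : D v z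
        · apply mem_union_right
          rw [hDy, mem_sdiff, N1, mem_filter, mem_union]
          simp only [hD'] at z2
          refine ⟨⟨mem_univ _, hDz⟩, ?_⟩
          intro hc
          apply z2
          refine ⟨hDz, ?_⟩
          rintro ⟨_, q1, q2⟩
          rcases hc with hc | hc
          · exact q1 hc
          · exact q2 hc
        · apply mem_union_left
          simp only [N2, mem_filter, mem_univ, true_and]
          exact ⟨z1, hDz, u, z3.1, z4.1⟩
      · intro z hz
        rw [hE, mem_sdiff, mem_union] at hz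
        push Not at hz
        obtain ⟨z1, z2, z3⟩ := hz
        obtain ⟨u, hu, huz⟩ := mem_nb.1 z1
        have hzT : z ∉ T := fun hh => z2 (hsub T hh)
        have hDvu : D v u := by
          rw [hDy, mem_sdiff, N1, mem_filter] at hu
          exact hu.1.2
        rcases huz with rfl | huz
        · exact mem_union_right _ hu
        · by_cases hDz : D v z
          · apply mem_union_right
            rw [hDy, mem_sdiff, N1, mem_filter, mem_union]
            refine ⟨⟨mem_univ _, hDz⟩, ?_⟩
            rintro (hc | hc)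
            · exact z3 hc
            · exact hzT hc
          · apply mem_union_left
            simp only [N2, mem_filter, mem_univ, true_and]
            refine ⟨?_, hDz, u, hDvu, huz⟩
            rintro rfl
            exact z3 hvX
    have a3 : Disjoint (N2 D' v) E := by
      rw [Finset.disjoint_left]
      intro z hz hzE
      simp only [N2, mem_filter, mem_univ, true_and] at hz
      obtain ⟨z1, z2, u, z3, z4⟩ := hz
      rw [hE, mem_sdiff, mem_union] at hzE
      push Not at hzE
      obtain ⟨y1, y2, y3⟩ := hzE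
      have hzT : z ∉ T := fun hh => y2 (hsub T hh)
      by_cases huX : u ∈ X
      · exact z4.2 ⟨huX, y3, hzT⟩
      · by_cases huT : u ∈ T
        · exact y2 (mem_nb.2 ⟨u, huT, Or.inr z4.1⟩)
        · exact z3.2 ⟨hvX, huX, huT⟩
    have a4 := card_le_card a2
    rw [card_union_of_disjoint a3] at a4
    have a5 := a4.trans (card_union_le _ _)
    have a6 := hce v
    omega
  · have b1 : N1 D' v = N1 D v := by
      ext z
      simp only [N1, hD', mem_filter, mem_univ, true_and]
      tauto
    have b2 : N2 D' v ⊆ N2 D v := by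
      intro z hz
      simp only [N2, mem_filter, mem_univ, true_and] at hz ⊢
      obtain ⟨z1, z2, u, z3, z4⟩ := hz
      refine ⟨z1, ?_, u, z3.1, z4.1⟩
      intro hDz
      apply z2
      refine ⟨hDz, ?_⟩
      rintro ⟨q, _⟩
      exact hvX q
    have b3 := card_le_card b2
    have b4 := hce v
    rw [b1] at hv
    omega

theorem snc_aux [Nonempty V] : ∀ (n : ℕ) (D : V → V → Prop), (∀ a b, D a b → ¬ D b a) →
    (arcs D).card = n → ∃ v, (N1 D v).card ≤ (N2 D v).card := by
  intro n
  induction n using Nat.strong_induction_on with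
  | _ n ih =>
    intro D hD hn
    by_contra hcon
    push Not at hcon
    apply no_G (cl D)
    · intro v
      exact Or.inl rfl
    · intro a b h1 h2
      rcases h1 with h1 | h1
      · exact h1
      · rcases h2 with h2 | h2
        · exact h2.symm
        · exact absurd h2 (hD _ _ h1)
    · intro v
      have h1 : 0 < (N1 D v).card := lt_of_le_of_lt (Nat.zero_le _) (hcon v)
      obtain ⟨u, hu⟩ := card_pos.1 h1
      have hDu : D v u := (mem_filter.1 hu).2
      refine ⟨u, ?_, Or.inr hDu⟩
      rintro rfl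
      exact hD _ _ hDu hDu
    · intro S hS
      apply G_of_min D hcon _ S hS
      intro D' hD' hlt
      exact ih (arcs D').card (hn ▸ hlt) D' (fun a b hab hba => hD a b (hD' _ _ hab) (hD' _ _ hba))
        rfl

/-- **Seymour's second neighbourhood conjecture.** -/
theorem seymour [Nonempty V] (D : V → V → Prop) (hD : ∀ a b, D a b → ¬ D b a) :
    ∃ v, (N1 D v).card ≤ (N2 D v).card :=
  snc_aux _ D hD rfl

end Vale.Agent.P038.H135
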